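import Vale.Agent.Lib.P308.Flip

namespace Vale.Agent.Lib.P308

open SimpleGraph

variable {V : Type*} {G : SimpleGraph V}

/-- The involution `σ` codes the matching `M`. -/
def Rep (M : G.Subgraph) (σ : V → V) : Prop :=
  (∀ v, v ∈ M.verts ↔ σ v ≠ v) ∧ ∀ x y, M.Adj x y ↔ (σ x = y ∧ x ≠ y)

lemma exists_rep {M : G.Subgraph} (hM : M.IsMatching) : ∃ σ, Rep M σ ∧ IsM G σ := by
  classical
  obtain ⟨σ, hσ⟩ : ∃ σ : V → V, σ = fun v => if h : v ∈ M.verts then (hM h).choose else v :=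
    ⟨_, rfl⟩
  have s1 : ∀ v, v ∈ M.verts → M.Adj v (σ v) := by
    intro v h; simp only [hσ, dif_pos h]; exact (hM h).choose_spec.1
  have s2 : ∀ v, v ∉ M.verts → σ v = v := by
    intro v h; simp only [hσ, dif_neg h]
  have s3 : ∀ x y, M.Adj x y → σ x = y :=
    fun x y h => hM.eq_of_adj_left (s1 x (M.edge_vert h)) h
  have s4 : ∀ v, σ v ≠ v → v ∈ M.verts := by
    intro v h; by_contra hc; exact h (s2 v hc)
  refine ⟨σ, ⟨?_, ?_⟩, ?_, ?_⟩
  · intro v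
    exact ⟨fun h => (M.adj_sub (s1 v h)).ne.symm, s4 v⟩
  · intro x y
    constructor
    · intro h; exact ⟨s3 x y h, (M.adj_sub h).ne⟩
    · rintro ⟨rfl, hne⟩
      exact s1 x (s4 x hne.symm)
  · intro v
    by_cases hv : v ∈ M.verts
    · exact s3 _ _ (s1 v hv).symm
    · rw [s2 v hv, s2 v hv]
  · intro v hv
    exact M.adj_sub (s1 v (s4 v hv))

lemma rep_sub_unique {M M' : G.Subgraph} {σ : V → V} (h : Rep M σ) (h' : Rep M' σ) : M = M' :=
  Subgraph.ext (Set.ext fun v => (h.1 v).trans (h'.1 v).symm)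
    (funext₂ fun x y => propext ((h.2 x y).trans (h'.2 x y).symm))

lemma rep_fun_unique {M : G.Subgraph} {σ σ' : V → V} (h : Rep M σ) (h' : Rep M σ') : σ = σ' := by
  funext x
  by_cases hx : x ∈ M.verts
  · have h1 : σ x ≠ x := (h.1 x).1 hx
    have h2 : M.Adj x (σ x) := (h.2 x (σ x)).2 ⟨rfl, h1.symm⟩
    exact ((h'.2 x (σ x)).1 h2).1.symm
  · have h1 : σ x = x := by by_contra hc; exact hx ((h.1 x).2 hc)
    have h2 : σ' x = x := by by_contra hc; exact hx ((h'.1 x).2 hc)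
    rw [h1, h2]

lemma exists_sub {σ : V → V} (hσ : IsM G σ) (hfp : ∀ v, σ v ≠ v) :
    ∃ M : G.Subgraph, Rep M σ ∧ M.IsPerfectMatching := by
  refine ⟨{ verts := Set.univ, Adj := fun x y => σ x = y, adj_sub := ?_,
            edge_vert := fun _ => Set.mem_univ _, symm := ⟨fun x y h => ?_⟩ }, ⟨?_, ?_⟩, ?_⟩
  · intro v w h
    subst h
    exact hσ.2 v (hfp v)
  · show σ y = x
    rw [← h, hσ.1]
  · intro v
    simp [hfp v]
  · intro x y
    constructor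
    · intro h
      refine ⟨h, ?_⟩
      intro hxy
      subst hxy
      exact hfp x h
    · intro h; exact h.1
  · rw [Subgraph.isPerfectMatching_iff]
    intro v
    exact ⟨σ v, rfl, fun y (hy : σ v = y) => hy.symm⟩

lemma count_le {α β γ : Type*} [Finite β] [Fintype γ] (A : Set α) (B : Set β)
    (R : α → β → γ → Prop) (hex : ∀ a ∈ A, ∃ b ∈ B, ∃ c, R a b c)
    (hinj : ∀ a a' b c, R a b c → R a' b c → a = a') :
    A.ncard ≤ Fintype.card γ * B.ncard := by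
  classical
  choose fb hfb fc hfc using hex
  let f : A → γ × B := fun a => (fc a a.2, ⟨fb a a.2, hfb a a.2⟩)
  have hf : Function.Injective f := by
    intro a a' haa
    have h1 : fc a a.2 = fc a' a'.2 := congrArg Prod.fst haa
    have h2 : fb a a.2 = fb a' a'.2 := congrArg (fun z => (z.2 : β)) haa
    have h3 := hfc a a.2
    rw [h1, h2] at h3
    exact Subtype.ext (hinj _ _ _ _ h3 (hfc a' a'.2))
  have := Nat.card_le_card_of_injective f hf
  rw [Nat.card_prod, Nat.card_coe_set_eq, Nat.card_coe_set_eq, Nat.card_eq_fintype_card] at this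
  exact this

theorem main [Fintype V] (k : ℕ)
    (hk : ∀ s : Finset V, (∀ x ∈ s, ∀ y ∈ s, ¬ G.Adj x y) → s.card ≤ k)
    (hpm : ∃ M : G.Subgraph, M.IsPerfectMatching) :
    {M : G.Subgraph | M.IsMatching ∧ (M.vertsᶜ).ncard = 2}.ncard
      ≤ 3 * k * (Fintype.card V) ^ (6 * k) * {M : G.Subgraph | M.IsPerfectMatching}.ncard := by
  classical
  obtain ⟨Mτ, hMτ⟩ := hpm
  obtain ⟨τ, hτrep, hτ⟩ := exists_rep hMτ.1
  have hτ' : ∀ v, τ v ≠ v := fun v => (hτrep.1 v).1 (hMτ.2 v)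
  have key := count_le (γ := Fin (3 * k) × (Fin (6 * k) → V))
    {M : G.Subgraph | M.IsMatching ∧ (M.vertsᶜ).ncard = 2}
    {M : G.Subgraph | M.IsPerfectMatching}
    (fun M M' c => ∃ σ p, Rep M σ ∧ IsM G σ ∧ Aug G σ c.1 p ∧ (∀ t : Fin (6 * k), c.2 t = p t) ∧
      Rep M' (flip σ c.1 p)) ?_ ?_
  · simpa [Fintype.card_prod, Fintype.card_fin, Fintype.card_fun] using key
  · rintro M ⟨hM, hM2⟩
    obtain ⟨σ, hrep, hσ⟩ := exists_rep hM
    obtain ⟨u, w, -, huw⟩ := Set.ncard_eq_two.1 hM2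
    have hfix : ∀ v, σ v = v ↔ (v = u ∨ v = w) := by
      intro v
      have h1 : v ∈ M.vertsᶜ ↔ (v = u ∨ v = w) := by rw [huw]; simp
      rw [← h1, Set.mem_compl_iff, hrep.1 v, not_not]
    obtain ⟨l, p, hp, hl⟩ := exists_short_aug hσ hτ hτ' hfix hk
    obtain ⟨hf1, hf2⟩ := flip_isM hσ hp
    obtain ⟨M', hM'rep, hM'⟩ := exists_sub hf1 hf2
    exact ⟨M', hM', (⟨l, by omega⟩, fun t => p t), σ, p, hrep, hσ, hp, fun _ => rfl, hM'rep⟩
  · rintro M₁ M₂ M' ⟨⟨l, hl⟩, c⟩ ⟨σ₁, p₁, r₁, m₁, a₁, e₁, f₁⟩ ⟨σ₂, p₂, r₂, m₂, a₂, e₂, f₂⟩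
    simp only at a₁ a₂ e₁ e₂ f₁ f₂
    have hp : ∀ t, t ≤ 2 * l + 1 → p₁ t = p₂ t := by
      intro t ht
      have h1 := e₁ ⟨t, by omega⟩
      have h2 := e₂ ⟨t, by omega⟩
      simp only at h1 h2
      rw [← h1, ← h2]
    have hσ : σ₁ = σ₂ := recover m₁.1 m₂.1 a₁ a₂ hp (rep_fun_unique f₁ f₂)
    subst hσ
    exact rep_sub_unique r₁ r₂

end Vale.Agent.Lib.P308
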