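import Mathlib

namespace Vale.Agent.Lib.P308

variable {V : Type*} (G : SimpleGraph V)

/-- A matching of `G` coded as an involution: `σ v` is the partner of `v`, or `v` itself
when `v` is uncovered. -/
def IsM (σ : V → V) : Prop := (∀ v, σ (σ v) = v) ∧ ∀ v, σ v ≠ v → G.Adj v (σ v)

/-- `p 0, ..., p (2 l + 1)` is an augmenting path for the matching `σ`, whose only uncovered
vertices are the two ends. -/
structure Aug (σ : V → V) (l : ℕ) (p : ℕ → V) : Prop where
  inj : ∀ s t, s ≤ 2 * l + 1 → t ≤ 2 * l + 1 → p s = p t → s = t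
  fix : ∀ v, σ v = v ↔ (v = p 0 ∨ v = p (2 * l + 1))
  mat : ∀ t, t < l → σ (p (2 * t + 1)) = p (2 * t + 2)
  adj : ∀ t, t ≤ l → G.Adj (p (2 * t)) (p (2 * t + 1))

variable {G}

lemma Aug.surgery {σ : V → V} (hσ : ∀ v, σ (σ v) = v) {l : ℕ} {p : ℕ → V} (h : Aug G σ l p)
    {i j m : ℕ} (hij : i + 2 ≤ j) (hjm : j ≤ m) (hml : m ≤ l)
    (h1 : G.Adj (p (2 * i)) (p (2 * j))) (h2 : G.Adj (p (2 * j - 1)) (p (2 * m + 1))) :
    ∃ l' q, l' < l ∧ Aug G σ l' q := by
  obtain ⟨φ, hφ⟩ : ∃ φ : ℕ → ℕ, φ = fun t => if t ≤ 2 * i then t else if t = 2 * i + 1 then 2 * j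
      else if t = 2 * i + 2 then 2 * j - 1 else t + 2 * m - 2 * i - 2 := ⟨_, rfl⟩
  have φ1 : ∀ t, t ≤ 2 * i → φ t = t := by
    intro t ht; simp only [hφ]; split_ifs <;> omega
  have φ2 : φ (2 * i + 1) = 2 * j := by
    simp only [hφ]; split_ifs <;> omega
  have φ3 : φ (2 * i + 2) = 2 * j - 1 := by
    simp only [hφ]; split_ifs <;> omega
  have φ4 : ∀ t, 2 * i + 3 ≤ t → φ t = t + 2 * m - 2 * i - 2 := by
    intro t ht; simp only [hφ]; split_ifs <;> omega
  have hcase : ∀ t, t ≤ 2 * i ∨ t = 2 * i + 1 ∨ t = 2 * i + 2 ∨ 2 * i + 3 ≤ t := by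
    intro t; omega
  have φle : ∀ t, t ≤ 2 * (i + 1 + l - m) + 1 → φ t ≤ 2 * l + 1 := by
    intro t ht
    rcases hcase t with h' | h' | h' | h'
    · rw [φ1 t h']; omega
    · rw [h', φ2]; omega
    · rw [h', φ3]; omega
    · rw [φ4 t h']; omega
  have φinj : ∀ s t, φ s = φ t → s = t := by
    intro s t hst
    rcases hcase s with h' | h' | h' | h' <;> rcases hcase t with h'' | h'' | h'' | h'' <;>
      first
      | (subst h'; subst h''; rfl)
      | (subst h'; try rw [φ2] at hst; try rw [φ3] at hst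
         try rw [φ1 t h''] at hst
         try rw [φ4 t h''] at hst
         try subst h''
         try rw [φ2] at hst
         try rw [φ3] at hst
         omega)
      | (try rw [φ1 s h'] at hst
         try rw [φ4 s h'] at hst
         try rw [φ1 t h''] at hst
         try rw [φ4 t h''] at hst
         try subst h''
         try rw [φ2] at hst
         try rw [φ3] at hst
         omega)
  refine ⟨i + 1 + l - m, fun t => p (φ t), by omega, ?_, ?_, ?_, ?_⟩
  · intro s t hs ht hst
    exact φinj s t (h.inj _ _ (φle s hs) (φle t ht) hst)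
  · intro v
    have e0 : φ 0 = 0 := φ1 0 (by omega)
    have e1 : φ (2 * (i + 1 + l - m) + 1) = 2 * l + 1 := by
      rw [φ4 _ (by omega)]; omega
    simp only [e0, e1]
    exact h.fix v
  · intro t ht
    show σ (p (φ (2 * t + 1))) = p (φ (2 * t + 2))
    rcases lt_trichotomy t i with h' | h' | h'
    · rw [φ1 _ (by omega), φ1 _ (by omega)]
      exact h.mat t (by omega)
    · subst h'
      rw [φ2, φ3]
      have := h.mat (j - 1) (by omega)
      have e1 : 2 * (j - 1) + 1 = 2 * j - 1 := by omega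
      have e2 : 2 * (j - 1) + 2 = 2 * j := by omega
      rw [e1, e2] at this
      rw [← this, hσ]
    · rw [φ4 _ (by omega), φ4 _ (by omega)]
      have := h.mat (t + m - i - 1) (by omega)
      have e1 : 2 * (t + m - i - 1) + 1 = 2 * t + 1 + 2 * m - 2 * i - 2 := by omega
      have e2 : 2 * (t + m - i - 1) + 2 = 2 * t + 2 + 2 * m - 2 * i - 2 := by omega
      rw [e1, e2] at this
      exact this
  · intro t ht
    show G.Adj (p (φ (2 * t))) (p (φ (2 * t + 1)))
    rcases lt_trichotomy t i with h' | h' | h'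
    · rw [φ1 _ (by omega), φ1 _ (by omega)]
      exact h.adj t (by omega)
    · subst h'
      rw [φ1 _ (by omega), φ2]
      exact h1
    · rcases Nat.lt_or_ge (i + 1) t with h'' | h''
      · rw [φ4 _ (by omega), φ4 _ (by omega)]
        have := h.adj (t + m - i - 1) (by omega)
        have e1 : 2 * (t + m - i - 1) + 1 = 2 * t + 1 + 2 * m - 2 * i - 2 := by omega
        have e2 : 2 * (t + m - i - 1) = 2 * t + 2 * m - 2 * i - 2 := by omega
        rw [e1, e2] at this
        exact this
      · have : t = i + 1 := by omega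
        subst this
        have e1 : 2 * (i + 1) = 2 * i + 2 := by omega
        rw [e1, φ3, φ4 _ (by omega)]
        have e2 : 2 * i + 2 + 1 + 2 * m - 2 * i - 2 = 2 * m + 1 := by omega
        rw [e2]
        exact h2

lemma card_le_of_indep {k : ℕ}
    (hk : ∀ s : Finset V, (∀ x ∈ s, ∀ y ∈ s, ¬ G.Adj x y) → s.card ≤ k)
    (A : Finset ℕ) (f : ℕ → V) (hinj : Set.InjOn f A)
    (hind : ∀ a ∈ A, ∀ b ∈ A, a < b → ¬ G.Adj (f a) (f b)) : A.card ≤ k := by
  classical
  rw [← Finset.card_image_of_injOn hinj]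
  apply hk
  intro x hx y hy
  obtain ⟨a, ha, rfl⟩ := Finset.mem_image.1 hx
  obtain ⟨b, hb, rfl⟩ := Finset.mem_image.1 hy
  rcases lt_trichotomy a b with h | h | h
  · exact hind a ha b hb h
  · subst h; exact G.irrefl
  · intro h'; exact hind b hb a ha h h'.symm

lemma Aug.length_le {σ : V → V} (hσ : ∀ v, σ (σ v) = v) {l : ℕ} {p : ℕ → V} (h : Aug G σ l p)
    (hmin : ∀ l' q, Aug G σ l' q → l ≤ l') {k : ℕ}
    (hk : ∀ s : Finset V, (∀ x ∈ s, ∀ y ∈ s, ¬ G.Adj x y) → s.card ≤ k) : l + 1 ≤ 3 * k := by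
  classical
  set P : ℕ → Prop := fun j => ∃ i, i + 2 ≤ j ∧ G.Adj (p (2 * i)) (p (2 * j)) with hP
  set S := (Finset.range (l + 1)).filter P with hS
  set Te := (Finset.range (l + 1)).filter (fun j => ¬ P j ∧ j % 2 = 0) with hTe
  set To := (Finset.range (l + 1)).filter (fun j => ¬ P j ∧ j % 2 = 1) with hTo
  have cS : S.card ≤ k := by
    apply card_le_of_indep hk S (fun j => p (2 * j - 1))
    · intro a ha b hb hab
      simp only [hS, Finset.coe_filter, Finset.mem_range, Set.mem_setOf_eq] at ha hb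
      obtain ⟨ha1, i, hi, -⟩ := ha
      obtain ⟨hb1, i', hi', -⟩ := hb
      have := h.inj _ _ (by omega) (by omega) hab
      omega
    · intro a ha b hb hab hadj
      simp only [hS, Finset.mem_filter, Finset.mem_range] at ha hb
      obtain ⟨ha1, i, hi, hia⟩ := ha
      have e : 2 * b - 1 = 2 * (b - 1) + 1 := by omega
      simp only [e] at hadj
      obtain ⟨l', q, hl', hq⟩ := h.surgery hσ (i := i) (j := a) (m := b - 1) hi (by omega)
        (by omega) hia hadj
      have := hmin l' q hq
      omega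
  have cTe : Te.card ≤ k := by
    apply card_le_of_indep hk Te (fun j => p (2 * j))
    · intro a ha b hb hab
      simp only [hTe, Finset.coe_filter, Finset.mem_range, Set.mem_setOf_eq] at ha hb
      have := h.inj _ _ (by omega) (by omega) hab
      omega
    · intro a ha b hb hab hadj
      simp only [hTe, Finset.mem_filter, Finset.mem_range] at ha hb
      exact hb.2.1 ⟨a, by omega, hadj⟩
  have cTo : To.card ≤ k := by
    apply card_le_of_indep hk To (fun j => p (2 * j))
    · intro a ha b hb hab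
      simp only [hTo, Finset.coe_filter, Finset.mem_range, Set.mem_setOf_eq] at ha hb
      have := h.inj _ _ (by omega) (by omega) hab
      omega
    · intro a ha b hb hab hadj
      simp only [hTo, Finset.mem_filter, Finset.mem_range] at ha hb
      exact hb.2.1 ⟨a, by omega, hadj⟩
  have hcov : Finset.range (l + 1) ⊆ (S ∪ Te) ∪ To := by
    intro j hj
    simp only [hS, hTe, hTo, Finset.mem_union, Finset.mem_filter]
    by_cases hPj : P j
    · exact Or.inl (Or.inl ⟨hj, hPj⟩)
    · rcases Nat.mod_two_eq_zero_or_one j with h0 | h0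
      · exact Or.inl (Or.inr ⟨hj, hPj, h0⟩)
      · exact Or.inr ⟨hj, hPj, h0⟩
  have h1 := Finset.card_le_card hcov
  have h2 := Finset.card_union_le (S ∪ Te) To
  have h3 := Finset.card_union_le S Te
  rw [Finset.card_range] at h1
  omega

end Vale.Agent.Lib.P308
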