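import Vale.Agent.Lib.P308.Core

namespace Vale.Agent.Lib.P308

variable {V : Type*} {G : SimpleGraph V}

lemma exists_aug [Finite V] {σ τ : V → V} (hσ : IsM G σ) (hτ : IsM G τ) (hτ' : ∀ v, τ v ≠ v)
    {u w : V} (hfix : ∀ v, σ v = v ↔ (v = u ∨ v = w)) : ∃ l p, Aug G σ l p := by
  classical
  obtain ⟨a, ha⟩ : ∃ a : ℕ → V, a = fun i => (fun x => σ (τ x))^[i] u := ⟨_, rfl⟩
  have a0 : a 0 = u := by simp [ha]
  have aS : ∀ i, a (i + 1) = σ (τ (a i)) := by
    intro i; simp only [ha]; rw [Function.iterate_succ_apply']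
  have σinj : Function.Injective σ := fun x y hxy => by
    have := congrArg σ hxy; rwa [hσ.1, hσ.1] at this
  have τinj : Function.Injective τ := fun x y hxy => by
    have := congrArg τ hxy; rwa [hτ.1, hτ.1] at this
  have σu : σ u = u := (hfix u).2 (Or.inl rfl)
  -- (A)
  have hA : ∀ n, a (n + 1) = u → σ (τ (a n)) = τ (a n) := by
    intro n hn
    rw [aS] at hn
    have h1 : τ (a n) = u := by
      have := congrArg σ hn; rw [hσ.1, σu] at this; exact this
    rw [h1, σu]
  -- (B)
  have hB : ∀ i d, a i = a (i + d) → a d = u := by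
    intro i
    induction i with
    | zero => intro d hd; rw [Nat.zero_add] at hd; rw [← hd, a0]
    | succ i ih =>
      intro d hd
      have e : i + 1 + d = (i + d) + 1 := by omega
      rw [e, aS, aS] at hd
      exact ih d (τinj (σinj hd))
  -- a fixed index exists
  have hex : ∃ n, σ (τ (a n)) = τ (a n) := by
    obtain ⟨x, y, hxy, hxy'⟩ := Finite.exists_ne_map_eq_of_infinite a
    rcases lt_or_gt_of_ne hxy with h | h
    · obtain ⟨d, rfl⟩ : ∃ d, y = x + (d + 1) := ⟨y - x - 1, by omega⟩
      exact ⟨d, hA d (hB x (d + 1) hxy')⟩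
    · obtain ⟨d, rfl⟩ : ∃ d, x = y + (d + 1) := ⟨x - y - 1, by omega⟩
      exact ⟨d, hA d (hB y (d + 1) hxy'.symm)⟩
  set l := Nat.find hex with hl
  have hlfix : σ (τ (a l)) = τ (a l) := Nat.find_spec hex
  have hlmin : ∀ n, n < l → σ (τ (a n)) ≠ τ (a n) := fun n hn => Nat.find_min hex hn
  -- (C)
  have hC' : ∀ d, ∀ i j, i = j + d → i ≤ l → a i ≠ τ (a j) := by
    intro d
    induction d using Nat.strong_induction_on with
    | _ d ih =>
      intro i j hij hil hcon
      match d, ih, hij with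
      | 0, _, hij =>
        have : i = j := by omega
        subst this
        exact hτ' _ hcon.symm
      | 1, _, hij =>
        subst hij
        rw [aS] at hcon
        exact hlmin j (by omega) hcon
      | d + 2, ih, hij =>
        have e : i = (j + d + 1) + 1 := by omega
        rw [e, aS] at hcon
        have h1 : τ (a (j + d + 1)) = a (j + 1) := by
          have := congrArg σ hcon; rw [hσ.1] at this; rw [this, aS]
        have h2 : a (j + d + 1) = τ (a (j + 1)) := by
          have := congrArg τ h1; rw [hτ.1] at this; exact this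
        exact ih d (by omega) (j + d + 1) (j + 1) (by omega) (by omega) h2
  have hC : ∀ i j, i ≤ l → j ≤ l → a i ≠ τ (a j) := by
    intro i j hi hj hcon
    rcases Nat.le_total j i with h | h
    · exact hC' (i - j) i j (by omega) hi hcon
    · have h2 : a j = τ (a i) := by
        have := congrArg τ hcon; rw [hτ.1] at this; exact this.symm
      exact hC' (j - i) j i (by omega) hj h2
  have hD : ∀ i j, i ≤ l → j ≤ l → a i = a j → i = j := by
    have key : ∀ i j, i < j → j ≤ l → a i ≠ a j := by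
      intro i j hij hj hcon
      obtain ⟨d, rfl⟩ : ∃ d, j = i + (d + 1) := ⟨j - i - 1, by omega⟩
      exact hlmin d (by omega) (hA d (hB i (d + 1) hcon))
    intro i j hi hj hij
    rcases lt_trichotomy i j with h | h | h
    · exact absurd hij (key i j h hj)
    · exact h
    · exact absurd hij.symm (key j i h hi)
  obtain ⟨p, hp⟩ : ∃ p : ℕ → V, p = fun t => if t % 2 = 0 then a (t / 2) else τ (a (t / 2)) :=
    ⟨_, rfl⟩
  have pe : ∀ t, p (2 * t) = a t := by
    intro t
    have e1 : (2 * t) % 2 = 0 := by omega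
    have e2 : (2 * t) / 2 = t := by omega
    simp only [hp, e1, e2, if_true]
  have po : ∀ t, p (2 * t + 1) = τ (a t) := by
    intro t
    have e1 : (2 * t + 1) % 2 = 1 := by omega
    have e2 : (2 * t + 1) / 2 = t := by omega
    simp only [hp, e1, e2]
    simp
  refine ⟨l, p, ?_, ?_, ?_, ?_⟩
  · intro s t hs ht hst
    obtain ⟨s', rfl | rfl⟩ : ∃ s', s = 2 * s' ∨ s = 2 * s' + 1 := ⟨s / 2, by omega⟩ <;>
    obtain ⟨t', rfl | rfl⟩ : ∃ t', t = 2 * t' ∨ t = 2 * t' + 1 := ⟨t / 2, by omega⟩
    · rw [pe, pe] at hst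
      have := hD s' t' (by omega) (by omega) hst
      omega
    · rw [pe, po] at hst
      exact absurd hst (hC s' t' (by omega) (by omega))
    · rw [pe, po] at hst
      exact absurd hst.symm (hC t' s' (by omega) (by omega))
    · rw [po, po] at hst
      have := hD s' t' (by omega) (by omega) (τinj hst)
      omega
  · intro v
    have e0 : p 0 = u := by
      have := pe 0; rw [Nat.mul_zero] at this; rw [this, a0]
    have e1 : p (2 * l + 1) = w := by
      rw [po]
      rcases (hfix _).1 hlfix with h | h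
      · exact absurd (a0.trans h.symm) (hC 0 l (by omega) le_rfl)
      · exact h
    rw [e0, e1]
    exact hfix v
  · intro t ht
    have e : 2 * t + 2 = 2 * (t + 1) := by omega
    rw [po, e, pe, aS]
  · intro t ht
    rw [pe, po]
    exact hτ.2 _ (hτ' _)

lemma exists_short_aug [Finite V] {σ τ : V → V} (hσ : IsM G σ) (hτ : IsM G τ)
    (hτ' : ∀ v, τ v ≠ v) {u w : V} (hfix : ∀ v, σ v = v ↔ (v = u ∨ v = w)) {k : ℕ}
    (hk : ∀ s : Finset V, (∀ x ∈ s, ∀ y ∈ s, ¬ G.Adj x y) → s.card ≤ k) :
    ∃ l p, Aug G σ l p ∧ l + 1 ≤ 3 * k := by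
  classical
  have hex : ∃ l, ∃ p, Aug G σ l p := exists_aug hσ hτ hτ' hfix
  obtain ⟨p, hp⟩ := Nat.find_spec hex
  refine ⟨Nat.find hex, p, hp, hp.length_le hσ.1 ?_ hk⟩
  intro l' q hq
  exact Nat.find_min' hex ⟨q, hq⟩

end Vale.Agent.Lib.P308
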