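import Vale.Agent.Lib.P308.Exist

namespace Vale.Agent.Lib.P308

variable {V : Type*} {G : SimpleGraph V}

open Classical in
/-- Exchange matching and non-matching edges along the path `p 0, ..., p (2 l + 1)`. -/
noncomputable def flip (σ : V → V) (l : ℕ) (p : ℕ → V) (v : V) : V :=
  if h : ∃ t, t ≤ 2 * l + 1 ∧ p t = v then
    (if h.choose % 2 = 0 then p (h.choose + 1) else p (h.choose - 1))
  else σ v

lemma flip_even {σ : V → V} {l : ℕ} {p : ℕ → V} (h : Aug G σ l p) {t : ℕ} (ht : t ≤ l) :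
    flip σ l p (p (2 * t)) = p (2 * t + 1) := by
  have hex : ∃ s, s ≤ 2 * l + 1 ∧ p s = p (2 * t) := ⟨2 * t, by omega, rfl⟩
  have hc : hex.choose = 2 * t :=
    h.inj _ _ hex.choose_spec.1 (by omega) hex.choose_spec.2
  unfold flip
  rw [dif_pos hex, hc, if_pos (by omega)]

lemma flip_odd {σ : V → V} {l : ℕ} {p : ℕ → V} (h : Aug G σ l p) {t : ℕ} (ht : t ≤ l) :
    flip σ l p (p (2 * t + 1)) = p (2 * t) := by
  have hex : ∃ s, s ≤ 2 * l + 1 ∧ p s = p (2 * t + 1) := ⟨2 * t + 1, by omega, rfl⟩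
  have hc : hex.choose = 2 * t + 1 :=
    h.inj _ _ hex.choose_spec.1 (by omega) hex.choose_spec.2
  unfold flip
  rw [dif_pos hex, hc, if_neg (by omega)]
  rfl

lemma flip_off {σ : V → V} {l : ℕ} {p : ℕ → V} {v : V}
    (hv : ¬ ∃ t, t ≤ 2 * l + 1 ∧ p t = v) : flip σ l p v = σ v := by
  unfold flip
  rw [dif_neg hv]

/-- `σ` maps the path to itself, in a way determined by the path. -/
lemma Aug.sigma_path {σ : V → V} (hσ : ∀ v, σ (σ v) = v) {l : ℕ} {p : ℕ → V} (h : Aug G σ l p)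
    {s : ℕ} (hs : s ≤ 2 * l + 1) :
    σ (p s) = p (if s = 0 then 0 else if s = 2 * l + 1 then 2 * l + 1
      else if s % 2 = 1 then s + 1 else s - 1) := by
  split_ifs with h0 h1 h2
  · subst h0; exact (h.fix _).2 (Or.inl rfl)
  · subst h1; exact (h.fix _).2 (Or.inr rfl)
  · obtain ⟨t, rfl⟩ : ∃ t, s = 2 * t + 1 := ⟨s / 2, by omega⟩
    exact h.mat t (by omega)
  · obtain ⟨t, rfl⟩ : ∃ t, s = 2 * t + 2 := ⟨s / 2 - 1, by omega⟩
    rw [← h.mat t (by omega), hσ]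
    rfl

lemma Aug.sigma_on {σ : V → V} (hσ : ∀ v, σ (σ v) = v) {l : ℕ} {p : ℕ → V} (h : Aug G σ l p)
    {s : ℕ} (hs : s ≤ 2 * l + 1) : ∃ t, t ≤ 2 * l + 1 ∧ p t = σ (p s) := by
  refine ⟨_, ?_, (h.sigma_path hσ hs).symm⟩
  split_ifs <;> omega

lemma flip_isM {σ : V → V} (hσ : IsM G σ) {l : ℕ} {p : ℕ → V} (h : Aug G σ l p) :
    IsM G (flip σ l p) ∧ ∀ v, flip σ l p v ≠ v := by
  have hcases : ∀ v, (∃ t, t ≤ l ∧ v = p (2 * t)) ∨ (∃ t, t ≤ l ∧ v = p (2 * t + 1)) ∨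
      ¬ ∃ t, t ≤ 2 * l + 1 ∧ p t = v := by
    intro v
    by_cases hv : ∃ t, t ≤ 2 * l + 1 ∧ p t = v
    · obtain ⟨s, hs, rfl⟩ := hv
      obtain ⟨t, rfl | rfl⟩ : ∃ t, s = 2 * t ∨ s = 2 * t + 1 := ⟨s / 2, by omega⟩
      · exact Or.inl ⟨t, by omega, rfl⟩
      · exact Or.inr (Or.inl ⟨t, by omega, rfl⟩)
    · exact Or.inr (Or.inr hv)
  refine ⟨⟨?_, ?_⟩, ?_⟩
  · intro v
    rcases hcases v with ⟨t, ht, rfl⟩ | ⟨t, ht, rfl⟩ | hv
    · rw [flip_even h ht, flip_odd h ht]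
    · rw [flip_odd h ht, flip_even h ht]
    · rw [flip_off hv]
      have hv' : ¬ ∃ t, t ≤ 2 * l + 1 ∧ p t = σ v := by
        rintro ⟨s, hs, hsv⟩
        obtain ⟨t, ht, ht'⟩ := h.sigma_on hσ.1 hs
        rw [hsv, hσ.1] at ht'
        exact hv ⟨t, ht, ht'⟩
      rw [flip_off hv', hσ.1]
  · intro v _
    rcases hcases v with ⟨t, ht, rfl⟩ | ⟨t, ht, rfl⟩ | hv
    · rw [flip_even h ht]; exact h.adj t ht
    · rw [flip_odd h ht]; exact (h.adj t ht).symm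
    · rw [flip_off hv]
      apply hσ.2
      intro hfix
      rcases (h.fix v).1 hfix with h' | h'
      · exact hv ⟨0, by omega, h'.symm⟩
      · exact hv ⟨2 * l + 1, le_rfl, h'.symm⟩
  · intro v
    rcases hcases v with ⟨t, ht, rfl⟩ | ⟨t, ht, rfl⟩ | hv
    · rw [flip_even h ht]
      intro hcon
      have := h.inj _ _ (by omega) (by omega) hcon
      omega
    · rw [flip_odd h ht]
      intro hcon
      have := h.inj _ _ (by omega) (by omega) hcon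
      omega
    · rw [flip_off hv]
      intro hfix
      rcases (h.fix v).1 hfix with h' | h'
      · exact hv ⟨0, by omega, h'.symm⟩
      · exact hv ⟨2 * l + 1, le_rfl, h'.symm⟩

/-- The matching is recovered from the flipped matching and the path. -/
lemma recover {σ₁ σ₂ : V → V} (h₁ : ∀ v, σ₁ (σ₁ v) = v) (h₂ : ∀ v, σ₂ (σ₂ v) = v)
    {l : ℕ} {p₁ p₂ : ℕ → V} (a₁ : Aug G σ₁ l p₁) (a₂ : Aug G σ₂ l p₂)
    (hp : ∀ t, t ≤ 2 * l + 1 → p₁ t = p₂ t)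
    (hf : flip σ₁ l p₁ = flip σ₂ l p₂) : σ₁ = σ₂ := by
  funext v
  by_cases hv : ∃ t, t ≤ 2 * l + 1 ∧ p₁ t = v
  · obtain ⟨s, hs, rfl⟩ := hv
    rw [a₁.sigma_path h₁ hs, hp s hs, a₂.sigma_path h₂ hs]
    apply hp
    split_ifs <;> omega
  · have hv' : ¬ ∃ t, t ≤ 2 * l + 1 ∧ p₂ t = v := by
      rintro ⟨t, ht, ht'⟩
      exact hv ⟨t, ht, (hp t ht).trans ht'⟩
    rw [← flip_off (σ := σ₁) hv, ← flip_off (σ := σ₂) hv', hf]

end Vale.Agent.Lib.P308
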